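import Vale.Agent.P354CB.Ez

/-!
The causal order to the future of a Cauchy surface: closed, compact pasts, antisymmetric.
-/

open Set Filter Topology

namespace Vale.Agent.P354CB50

open Vale.Agent.P354n Vale.Agent.P354CB

variable {M : Spc} {S : Set M.pt}

theorem ord_cl (L : L1) (hL : LIM) (h : GH0 M S) :
    IsClosed {q : M.pt × M.pt | q.1 ∉ Pa M S ∧ Le M q.1 q.2} := by
  have sub : {q : M.pt × M.pt | q.1 ∉ Pa M S ∧ Le M q.1 q.2} ⊆
      closure {q : M.pt × M.pt | LL M q.1 q.2 ∧ q.1 ∉ Pa M S} := by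
    rintro ⟨a, b⟩ ⟨h1, h2⟩
    exact map_mem_closure (f := fun z => (a, z)) (by fun_prop) (L.b.nearF h.st b)
      fun z hz => ⟨h2.1 z hz, h1⟩
  refine isClosed_of_closure_subset fun q hq => ?_
  have h1 : q.1 ∉ Pa M S :=
    closure_minimal (s := {q : M.pt × M.pt | q.1 ∉ Pa M S ∧ Le M q.1 q.2})
      (t := Prod.fst ⁻¹' (Pa M S)ᶜ) (fun _ k => k.1)
      ((L.opPa h.st S).isClosed_compl.preimage continuous_fst) hq
  obtain ⟨F, F1, F2⟩ := mem_closure_iff_ultrafilter.1 (closure_minimal sub isClosed_closure hq)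
  obtain ⟨x, x1, x2⟩ := hL M S h _ F Prod.fst Prod.snd q.2 F1
    (continuous_snd.continuousAt.mono_left F2)
  exact ⟨h1, tendsto_nhds_unique x1 (continuous_fst.continuousAt.mono_left F2) ▸ x2⟩

theorem ord_cpt (L : L1) (hL : LIM) (h : GH0 M S) (y : M.pt) :
    IsCompact {x | x ∉ Pa M S ∧ Le M x y} := by
  refine isCompact_iff_ultrafilter_le_nhds.2 fun F hF => ?_
  obtain ⟨z, hz⟩ := closure_nonempty_iff.1 ⟨_, L.b.nearF h.st y⟩
  have hK : {x | x ∉ Pa M S ∧ Le M x y} ∈ F := le_principal_iff.1 hF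
  obtain ⟨x, x1, -⟩ := hL M S h _ F id (fun _ => z) z
    (mem_of_superset hK fun a k => ⟨k.2.1 z hz, k.1⟩) tendsto_const_nhds
  have cl : IsClosed {x | x ∉ Pa M S ∧ Le M x y} :=
    (ord_cl L hL h).preimage (f := fun x => (x, y)) (by fun_prop)
  exact ⟨x, cl.mem_of_tendsto x1 hK, x1⟩

theorem ord_anti (L : L1) (hG : GONE) (h : GH0 M S) (x y : M.pt) (hx : x ∉ Pa M S)
    (h1 : Le M x y) (h2 : Le M y x) : x = y := by
  by_contra ne
  have := L.b.met M h.sc
  obtain ⟨U, hU, V, hV, dj⟩ := exists_nhds_disjoint_closure ne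
  have sU : ∀ z : {z // LL M x z}, ∃ q : {z // LL M x z}, q.1 ∈ U ∧ LL M q.1 z.1 := fun z => by
    obtain ⟨q, q1, q2, q3⟩ := L.b.midP h.st z.2 U hU
    exact ⟨⟨q, q2⟩, q1, q3⟩
  have sV : ∀ z : {z // LL M x z}, ∃ q : {z // LL M x z}, q.1 ∈ V ∧ LL M q.1 z.1 := fun z => by
    obtain ⟨q, q1, q2, q3⟩ := L.b.midP h.st (h2.1 _ z.2) V hV
    exact ⟨⟨q, h1.1 _ q2⟩, q1, q3⟩
  choose f f1 f2 using sU
  choose g g1 g2 using sV
  obtain ⟨z, hz⟩ := closure_nonempty_iff.1 ⟨_, L.b.nearF h.st x⟩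
  let q : ℕ → {z // LL M x z} := fun n =>
    Nat.rec ⟨z, hz⟩ (fun n w => if Even n then f w else g w) n
  have qs : ∀ n, q (n + 1) = if Even n then f (q n) else g (q n) := fun _ => rfl
  obtain ⟨w, hw⟩ := (hG M S h).nochain (fun n => (q n).1)
    (fun n => by
      rw [qs]
      split_ifs
      · exact f2 _
      · exact g2 _)
    fun n k => hx (L.pa_dn h.st k (q n).2)
  refine disjoint_left.1 dj (mem_closure_of_frequently_of_tendsto ?_ hw)
    (mem_closure_of_frequently_of_tendsto ?_ hw)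
  · refine frequently_atTop.2 fun a => ⟨2 * a + 1, by omega, ?_⟩
    rw [qs, if_pos (even_two_mul a)]
    exact f1 _
  · refine frequently_atTop.2 fun a => ⟨2 * a + 1 + 1, by omega, ?_⟩
    rw [qs, if_neg (Nat.not_even_two_mul_add_one a)]
    exact g1 _

/-- **ORD.** -/
theorem ord (L : L1) (hG : GONE) (hL : LIM) : ORD := fun _ _ h =>
  ⟨ord_cl L hL h, ord_cpt L hL h, ord_anti L hG h⟩

end Vale.Agent.P354CB50
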