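import Vale.Agent.P354CB40.Mg

/-!
Countably many developments of parts of the data glued along the identified points.
-/

open scoped ContDiff
open Set Filter Topology

namespace Vale.Agent.P354CB50

open Vale.Agent.P354n
open Vale.Agent.P354I (X Dat)
open Vale.Agent.P354J (PDy)
open Vale.Agent.P354XJ (isIsom_iff inv_co co_inv inv_mem inv_cont)
open Vale.Agent.P354CB

variable {d : Dat} {ι : Type}

/-- The hypotheses of the gluing. -/
structure Hy (A : ι → LD d) : Prop where
  k : LK1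
  t : L3
  pd : PDy d
  key : KEY

namespace Hy

variable {A : ι → LD d} (h : Hy A)
include h

/-- The equivalence relation. -/
def st : Setoid (Σ i, (A i).N.pt) where
  r p q := Rel (A p.1) (A q.1) p.2 q.2
  iseqv :=
    { refl := fun p => ⟨univ, id, com_id h.k (A p.1), trivial, rfl⟩
      symm := P354CB40.Rel.symm h.t h.pd
      trans := P354CB40.Rel.trans h.t h.pd }

/-- The points. -/
def Q : Type := Quotient h.st

/-- The topology. -/
@[reducible] def tp : TopologicalSpace h.Q := inferInstanceAs (TopologicalSpace (Quotient h.st))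

attribute [local instance] tp

/-- The embeddings. -/
def j (i : ι) (x : (A i).N.pt) : h.Q := Quotient.mk h.st ⟨i, x⟩

theorem eq {i k x x'} : h.j i x = h.j k x' ↔ Rel (A i) (A k) x x' := Quotient.eq (r := h.st)

theorem open_iff {S : Set h.Q} : IsOpen S ↔ ∀ i, IsOpen (h.j i ⁻¹' S) :=
  (isQuotientMap_quot_mk (r := h.st)).isOpen_preimage.symm.trans isOpen_sigma_iff

theorem emb (i : ι) : IsOpenEmbedding (h.j i) := by
  refine .of_continuous_injective_isOpenMap (continuous_def.2 fun S hS => h.open_iff.1 hS i)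
    (fun _ _ k => P354CB40.Rel.self h.k h.t h.pd (h.eq.1 k)) fun W hW => h.open_iff.2 fun k => ?_
  refine isOpen_iff_mem_nhds.2 ?_
  rintro y ⟨x, hx, e⟩
  obtain ⟨U, ψ, c, m, rfl⟩ := h.eq.1 e.symm
  filter_upwards [c.hull.op.mem_nhds m, (c.lm y m).1.eventually (hW.mem_nhds hx)] with z a b
  exact ⟨ψ z, b, (h.eq.2 ⟨U, ψ, c, a, rfl⟩).symm⟩

theorem cover (p : h.Q) : ∃ i x, h.j i x = p := by
  obtain ⟨⟨i, x⟩, rfl⟩ := Quotient.exists_rep p
  exact ⟨i, x, rfl⟩

theorem t2 : T2Space h.Q := by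
  refine ⟨fun p q k => ?_⟩
  obtain ⟨i, x, rfl⟩ := h.cover p
  obtain ⟨l, y, rfl⟩ := h.cover q
  obtain ⟨u, v, hu, hv, xu, yv, huv⟩ := isOpen_prod_iff.1
    (h.key d h.pd (A i) (A l)).isOpen_compl x y fun e => k (h.eq.2 e)
  refine ⟨_, _, (h.emb i).isOpenMap u hu, (h.emb l).isOpenMap v hv, ⟨x, xu, rfl⟩, ⟨y, yv, rfl⟩,
    disjoint_left.2 ?_⟩
  rintro _ ⟨x', hx', rfl⟩ ⟨y', hy', e⟩
  exact huv (mk_mem_prod hx' hy') (h.eq.1 e.symm)

/-- The glued spacetime. -/
noncomputable def sp : Spc where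
  pt := h.Q
  top := h.tp
  hausdorff := h.t2
  Chart := Σ i, (A i).N.Chart
  toE e := ((A e.1).N.toE e.2).lift_openEmbedding (h.emb e.1)
  cover p := by
    obtain ⟨i, x, rfl⟩ := h.cover p
    obtain ⟨e, he⟩ := (A i).N.cover x
    exact ⟨⟨i, e⟩, x, he, rfl⟩
  g e := (A e.1).N.g e.2
  X e := (A e.1).N.X e.2

theorem co_j {i} (e : (A i).N.Chart) (x : (A i).N.pt) :
    co (M := h.sp) ⟨i, e⟩ (h.j i x) = co e x :=
  ((A i).N.toE e).lift_openEmbedding_apply (h.emb i)

theorem isom (i : ι) : IsIsom (N := h.sp) (h.j i) := by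
  refine isIsom_iff.2 ?_
  rintro e ⟨l, e'⟩ y hy ⟨x, hx, k⟩
  obtain ⟨U, ψ, c, m, rfl⟩ := h.eq.1 k.symm
  have := (c.lm _ m).2 e e' (inv_mem hy) hx
  rw [co_inv hy] at this
  refine P354XJ.Iso.congr (N := h.sp) (e' := ⟨l, e'⟩) this ?_
  filter_upwards [(inv_cont hy).eventually (c.hull.op.mem_nhds m)] with z a
  rw [h.eq.2 ⟨U, ψ, c, a, rfl⟩, h.co_j]

theorem stt : St h.sp where
  sp :=
    { tensor := isIsom_iff.2 fun e e' y hy k => isIsom_iff.1 (h.isom e.1) e.2 e' y hy k
      signature := fun e => (A e.1).h.gh.st.sp.signature e.2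
      timelike := fun e => (A e.1).h.gh.st.sp.timelike e.2
      continuous := fun e => (A e.1).h.gh.st.sp.continuous e.2
      regular := fun e => (A e.1).h.gh.st.sp.regular e.2 }
  vac e := (A e.1).h.gh.st.vac e.2

theorem sc [Countable ι] : SecondCountableTopology h.Q := by
  have c : ∀ i, SecondCountableTopology (range (h.j i)) := fun i =>
    have := (A i).h.gh.sc
    (h.emb i).isEmbedding.toHomeomorph.symm.secondCountableTopology
  exact TopologicalSpace.secondCountableTopology_of_countable_cover (U := fun i => range (h.j i))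
    (fun i => (h.emb i).isOpen_range) (eq_univ_of_forall fun p => mem_iUnion.2 (h.cover p))

end Hy

/-- **GL1.** -/
theorem gl1 (K : LK1) (T : L3) (hK : KEY) : GL1 := fun _ hd _ _ A =>
  have h : Hy A := ⟨K, T, hd, hK⟩
  ⟨h.sp, h.j, h.stt, h.sc, h.emb, h.isom, h.cover, fun _ _ _ _ => h.eq⟩

end Vale.Agent.P354CB50
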